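import Vale.Agent.P213.Cplx.Chains
import Vale.Agent.P213.Cplx.Cylinder
import Mathlib.Order.Basic

/-!
# The Alexander–Whitney maps `chains P ⟶ chains P ⊗ I`

For monotone `t : P → {false < true}`, `[a₀ … a_l] ↦ [a] ⊗ t a_l`, plus `[a₀ … a_{l-1}] ⊗ I`
when `t` jumps between the last two vertices.
-/

open CategoryTheory

namespace Vale.Agent.P213.ADC

noncomputable section

variable {P Q : Type} [PartialOrder P] [PartialOrder Q]

/-- The `⊗ I` part of the Alexander–Whitney map. -/
def awMid (t : P →o Bool) : ∀ {k : ℕ}, (Fin (k + 1) → P) → (CylB (Chain P) k →₀ ℤ)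
  | 0, _ => 0
  | k + 1, c =>
    if t (c (Fin.last k).castSucc) = t (c (Fin.last (k + 1))) then 0
    else iMid (chains P) k (el (face c (Fin.last (k + 1))))

/-- The Alexander–Whitney map on a sequence. -/
def awEl (t : P →o Bool) {k : ℕ} (c : Fin (k + 1) → P) : CylB (Chain P) k →₀ ℤ :=
  iEnd (chains P) k (t (c (Fin.last k))) (el c) + awMid t c

lemma awEl_nonneg (t : P →o Bool) {k : ℕ} (c : Fin (k + 1) → P) : 0 ≤ awEl t c := by
  refine add_nonneg (iEnd_nonneg (K := chains P) _ _ (el_nonneg _)) ?_
  cases k with
  | zero => exact le_rfl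
  | succ k =>
    rw [awMid]
    split_ifs
    exacts [le_rfl, iMid_nonneg (K := chains P) _ (el_nonneg _)]

lemma awMid_degenerate (t : P →o Bool) {k : ℕ} {c : Fin (k + 1) → P}
    (hd : ¬ StrictMono c) (hc : Monotone c) : awMid t c = 0 := by
  cases k with
  | zero => rfl
  | succ k =>
    rw [awMid]
    split_ifs with he
    · rfl
    rw [el_of_not, map_zero]
    intro hs
    refine hd (Fin.strictMono_iff_lt_succ.mpr fun i => ?_)
    induction i using Fin.lastCases with
    | last =>
      rw [Fin.succ_last]
      exact lt_of_le_of_ne (hc (Fin.castSucc_lt_last _).le) fun e => he (by rw [e])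
    | cast i =>
      have := Fin.strictMono_iff_lt_succ.mp hs i
      rwa [face, Function.comp_apply, Function.comp_apply, Fin.succAbove_last,
        ← Fin.succ_castSucc] at this

lemma onGen_awEl (t : P →o Bool) {k : ℕ} {c : Fin (k + 1) → P} (hc : Monotone c) :
    onGen (fun a : Chain P k => awEl t a.1) (el c) = awEl t c := by
  by_cases hs : StrictMono c
  · rw [el_of_strictMono hs, onGen_single]
  · rw [el_of_not hs, map_zero, awEl, el_of_not hs, map_zero, awMid_degenerate t hs hc, add_zero]

lemma awEl_comm (t : P →o Bool) {k : ℕ} {c : Fin (k + 2) → P} (hc : Monotone c) :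
    ∑ i : Fin (k + 2), (-1 : ℤ) ^ (i : ℕ) • awEl t (face c i) =
      (cyl (chains P)).d k (awEl t c) := by
  have hlast : ∀ i : Fin (k + 1), face c i.castSucc (Fin.last k) = c (Fin.last (k + 1)) := fun i => by
    rw [face, Function.comp_apply, Fin.succAbove_castSucc_of_le _ _ (Fin.le_last i), Fin.succ_last]
  have hF : ∀ j : Fin (k + 1), face c (Fin.last (k + 1)) j = c j.castSucc := fun j => by
    rw [face, Function.comp_apply, Fin.succAbove_last]
  have hd : (cyl (chains P)).d k (iEnd (chains P) (k + 1) (t (c (Fin.last (k + 1)))) (el c)) =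
      ∑ i : Fin (k + 2), (-1 : ℤ) ^ (i : ℕ) •
        iEnd (chains P) k (t (c (Fin.last (k + 1)))) (el (face c i)) := by
    rw [cyl_d_iEnd, chains_d_el hc, map_sum]
    exact Finset.sum_congr rfl fun i _ => map_zsmul _ _ _
  rw [awEl, map_add, hd]
  simp only [awEl, smul_add, Finset.sum_add_distrib]
  rw [Fin.sum_univ_castSucc (f := fun i : Fin (k + 2) =>
      (-1 : ℤ) ^ (i : ℕ) • iEnd (chains P) k (t (face c i (Fin.last k))) (el (face c i))),
    Fin.sum_univ_castSucc (f := fun i : Fin (k + 2) =>
      (-1 : ℤ) ^ (i : ℕ) • iEnd (chains P) k (t (c (Fin.last (k + 1)))) (el (face c i)))]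
  simp only [hlast, hF, Fin.val_last, Fin.val_castSucc]
  cases k with
  | zero =>
    have hm : ∀ i : Fin 2, awMid t (face c i) = 0 := fun i => rfl
    simp only [hm, smul_zero, Finset.sum_const_zero, add_zero]
    rw [awMid]
    by_cases he : t (c (Fin.last 0).castSucc) = t (c (Fin.last 1))
    · rw [if_pos he, map_zero, add_zero, he]
    · rw [if_neg he, cyl_d_iMid_zero]
      have hle : t (c (Fin.last 0).castSucc) ≤ t (c (Fin.last 1)) :=
        t.monotone (hc (Fin.castSucc_lt_last _).le)
      have h0 : t (c (Fin.last 0).castSucc) = false ∧ t (c (Fin.last 1)) = true := by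
        revert hle he
        cases t (c (Fin.last 0).castSucc) <;> cases t (c (Fin.last 1)) <;> simp
      rw [h0.1, h0.2]
      simp only [pow_succ, pow_zero, one_mul, neg_smul, one_smul, zero_add]
      abel
  | succ k =>
    -- the mids of the faces
    have hm : ∀ i : Fin (k + 1), awMid t (face c i.castSucc.castSucc) =
        if t (c (Fin.last (k + 1)).castSucc) = t (c (Fin.last (k + 2))) then 0
        else iMid (chains P) k (el (face (face c (Fin.last (k + 2))) i.castSucc)) := fun i => by
      rw [awMid]
      have e1 : face c i.castSucc.castSucc (Fin.last k).castSucc = c (Fin.last (k + 1)).castSucc := by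
        rw [face, Function.comp_apply, Fin.castSucc_succAbove_castSucc,
          Fin.succAbove_castSucc_of_le _ _ (Fin.le_last i), Fin.succ_last]
      rw [e1, hlast i.castSucc]
      congr 3
      funext j
      rw [face, Function.comp_apply, Fin.succAbove_last, face, Function.comp_apply,
        Fin.castSucc_succAbove_castSucc, face, Function.comp_apply, hF]
    have hp : awMid t (face c (Fin.last (k + 1)).castSucc) =
        if t (c (Fin.last k).castSucc.castSucc) = t (c (Fin.last (k + 2))) then 0
        else iMid (chains P) k (el (face (face c (Fin.last (k + 2))) (Fin.last (k + 1)))) := by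
      rw [awMid]
      have e1 : face c (Fin.last (k + 1)).castSucc (Fin.last k).castSucc =
          c (Fin.last k).castSucc.castSucc := by
        rw [face, Function.comp_apply, Fin.castSucc_succAbove_castSucc, Fin.succAbove_last]
      rw [e1, hlast (Fin.last (k + 1))]
      congr 3
      funext j
      rw [face, Function.comp_apply, Fin.succAbove_last, face, Function.comp_apply,
        Fin.castSucc_succAbove_castSucc, face, Function.comp_apply, Fin.succAbove_last, hF]
    have hl : awMid t (face c (Fin.last (k + 2))) =
        if t (c (Fin.last k).castSucc.castSucc) = t (c (Fin.last (k + 1)).castSucc) then 0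
        else iMid (chains P) k (el (face (face c (Fin.last (k + 2))) (Fin.last (k + 1)))) := by
      rw [awMid, hF, hF]
    have hdm : (cyl (chains P)).d (k + 1) (awMid t c) =
        if t (c (Fin.last (k + 1)).castSucc) = t (c (Fin.last (k + 2))) then 0
        else (∑ i : Fin (k + 2), (-1 : ℤ) ^ (i : ℕ) •
            iMid (chains P) k (el (face (face c (Fin.last (k + 2))) i))) +
          (-1 : ℤ) ^ (k + 1) • (iEnd (chains P) (k + 1) true (el (face c (Fin.last (k + 2)))) -
            iEnd (chains P) (k + 1) false (el (face c (Fin.last (k + 2))))) := by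
      rw [awMid]
      split_ifs
      · rw [map_zero]
      · rw [cyl_d_iMid_succ, par_sub,
          chains_d_el (hc.comp (Fin.strictMono_succAbove _).monotone), map_sum]
        exact congrArg (· + _) (Finset.sum_congr rfl fun i _ => map_zsmul _ _ _)
    rw [hdm, Fin.sum_univ_castSucc (f := fun i : Fin (k + 3) =>
        (-1 : ℤ) ^ (i : ℕ) • awMid t (face c i)),
      Fin.sum_univ_castSucc (f := fun i : Fin (k + 2) =>
        (-1 : ℤ) ^ (i.castSucc : ℕ) • awMid t (face c i.castSucc))]
    simp only [hm, hp, hl, Fin.val_last, Fin.val_castSucc]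
    rw [Fin.sum_univ_castSucc (f := fun i : Fin (k + 2) =>
        (-1 : ℤ) ^ (i : ℕ) • iMid (chains P) k (el (face (face c (Fin.last (k + 2))) i)))]
    simp only [Fin.val_last, Fin.val_castSucc]
    have h1 : t (c (Fin.last k).castSucc.castSucc) ≤ t (c (Fin.last (k + 1)).castSucc) :=
      t.monotone (hc (Fin.castSucc_le_castSucc_iff.mpr (Fin.castSucc_lt_last _).le))
    have h2 : t (c (Fin.last (k + 1)).castSucc) ≤ t (c (Fin.last (k + 2))) :=
      t.monotone (hc (Fin.castSucc_lt_last _).le)
    revert h1 h2
    cases t (c (Fin.last k).castSucc.castSucc) <;> cases t (c (Fin.last (k + 1)).castSucc) <;>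
      cases t (c (Fin.last (k + 2))) <;> intro h1 h2 <;>
      first
      | exact absurd h1 (by decide)
      | exact absurd h2 (by decide)
      | (simp only [if_true, Bool.false_eq_true, if_false, smul_zero,
          Finset.sum_const_zero, pow_succ, mul_neg, mul_one, neg_smul, smul_sub, add_zero,
          zero_add]
         try abel)

/-- The Alexander–Whitney map attached to `t`. -/
def aw (t : P →o Bool) : chains P ⟶ cyl (chains P) :=
  Hom.ofGen (fun _ a => awEl t a.1) (fun _ a => awEl_nonneg t a.1)
    (fun k a => by
      rw [chains_gen, chains_d_el a.2.monotone, map_sum]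
      refine (Finset.sum_congr rfl fun i _ => ?_).trans (awEl_comm t a.2.monotone)
      rw [map_zsmul, onGen_awEl t (a.2.monotone.comp (Fin.strictMono_succAbove i).monotone)])
    (fun a => by
      rw [chains_gen, chains_ε_el]
      change cylEps (chains P) (iEnd (chains P) 0 _ (el a.1) + 0) = 1
      rw [add_zero, cylEps_iEnd, chains_ε_el])

/-- At a constant the map is the end inclusion. -/
lemma aw_const (t : P →o Bool) (e : Bool) (he : ∀ x, t x = e) :
    aw t = cylEnd e (chains P) := by
  refine Hom.ext_gen fun k c => ?_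
  rw [aw, Hom.ofGen_gen, chains_gen, awEl, he]
  have : awMid t c.1 = 0 := by
    cases k with
    | zero => rfl
    | succ k => rw [awMid, if_pos (by rw [he, he])]
  rw [this, add_zero]
  rfl

/-- Naturality. -/
lemma aw_naturality (t : P →o Bool) (k : Q →o P) :
    chainsMap k ≫ aw t = aw (t.comp k) ≫ cylMap (chainsMap k) := by
  refine Hom.ext_gen fun l c => ?_
  rw [comp_f, comp_f, chainsMap_gen, aw, aw, Hom.ofGen_gen]
  refine (onGen_awEl t (k.monotone.comp c.2.monotone)).trans ?_
  change _ = cylMapF (chainsMap k) l (awEl (t.comp k) c.1)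
  rw [awEl, awEl, map_add, cylMapF_iEnd, chainsMap_el k c.2.monotone]
  congr 1
  cases l with
  | zero => simp [awMid]
  | succ l =>
    rw [awMid, awMid]
    simp only [OrderHom.comp_coe, Function.comp_apply]
    split_ifs
    · rw [map_zero]
    · rw [cylMapF_iMid, chainsMap_el k (c.2.monotone.comp (Fin.strictMono_succAbove _).monotone)]
      rfl

end

end Vale.Agent.P213.ADC
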