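import Vale.Agent.P213.Homotopy.Prism
import Vale.Agent.P213.Homotopy.AW
import Vale.Agent.P213.Nerve.Nerve

/-!
# What the homotopy layer consumes from the cylinder

A functor cylinder `Γ` with ends, constants, and the adjunction bijection
`(O_p ⟶ Γ Y) ≃ (ν (O_p ⊗ I) ⟶ Y)`.
-/

open CategoryTheory

namespace Vale.Agent.P213.Homotopy

noncomputable section

/-- The cylinder interface. -/
structure CylData where
  Γ : OCat ⥤ OCat
  ev : Bool → (Γ ⟶ 𝟭 OCat)
  cst : 𝟭 OCat ⟶ Γ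
  cst_ev : ∀ e X, cst.app X ≫ (ev e).app X = 𝟙 X
  dimLE : ∀ (n : ℕ∞) (X : OCat), OCat.DimLE n X → OCat.DimLE n (Γ.obj X)
  adj : ∀ (p : SimplexCategory) (Y : OCat),
    (orientals.obj p ⟶ Γ.obj Y) ≃ (ADC.nuFunctor.obj (ADC.cyl (ADC.oriental p.len)) ⟶ Y)
  adj_map : ∀ {p q : SimplexCategory} (θ : p ⟶ q) {Y : OCat} (F : orientals.obj q ⟶ Γ.obj Y),
    adj p Y (orientals.map θ ≫ F) =
      ADC.nuFunctor.map (ADC.cylMap (ADC.chainsMap θ.toOrderHom)) ≫ adj q Y F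
  adj_comp : ∀ {p : SimplexCategory} {Y Z : OCat} (F : orientals.obj p ⟶ Γ.obj Y) (g : Y ⟶ Z),
    adj p Z (F ≫ Γ.map g) = adj p Y F ≫ g
  adj_ev : ∀ (e : Bool) {p : SimplexCategory} {Y : OCat} (F : orientals.obj p ⟶ Γ.obj Y),
    F ≫ (ev e).app Y = ADC.nuFunctor.map (ADC.cylEnd e (ADC.oriental p.len)) ≫ adj p Y F
  adj_cst : ∀ {p : SimplexCategory} {Y : OCat} (F : orientals.obj p ⟶ Y),
    adj p Y (F ≫ cst.app Y) = ADC.nuFunctor.map (ADC.cylProj (ADC.oriental p.len)) ≫ F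

namespace CylData

variable (D : CylData) (n : ℕ∞)

/-- The cylinder on `n`-categories. -/
def cylN : NCat n ⥤ NCat n :=
  ObjectProperty.lift _ (NCat.incl n ⋙ D.Γ) fun X => D.dimLE n _ X.property

/-- Its ends. -/
def evN (e : Bool) : D.cylN n ⟶ 𝟭 (NCat n) where
  app X := ObjectProperty.homMk ((D.ev e).app X.obj)
  naturality _ _ f := ObjectProperty.hom_ext _ ((D.ev e).naturality f.hom)

/-- Its constants. -/
def cstN : 𝟭 (NCat n) ⟶ D.cylN n where
  app X := ObjectProperty.homMk (D.cst.app X.obj)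
  naturality _ _ f := ObjectProperty.hom_ext _ (D.cst.naturality f.hom)

lemma cstN_evN (e : Bool) (X : NCat n) : (D.cstN n).app X ≫ (D.evN n e).app X = 𝟙 X :=
  ObjectProperty.hom_ext _ (D.cst_ev e X.obj)

end CylData

end

end Vale.Agent.P213.Homotopy
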