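import Vale.Agent.P213.Homotopy.Data
import Vale.Agent.P213.Glue.PosetNerve
import Mathlib.Data.Fintype.Sort

/-!
# The prism on nerves of posets

For `f ≤ g : Q → P` moving only last vertices and `φ : nerve P ⟶ N X`, a map
`nerve Q ⟶ N (Γ X)` with ends `f`, `g`, constant where `f = g`. A simplex `x` is treated in any
strictly monotone `z : [r] → P` through which `f ∘ x` and `g ∘ x` factor.
-/

open CategoryTheory Opposite Simplicial

namespace Vale.Agent.P213.Homotopy

noncomputable section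

variable {P Q : Type} [PartialOrder P] [PartialOrder Q]

/-- A simplex of a nerve as a monotone map. -/
def seqOf {n : SimplexCategoryᵒᵖ} (x : (nerve P : SSet.{0}).obj n) : Fin (n.unop.len + 1) →o P where
  toFun i := (x : ComposableArrows P _).obj i
  monotone' _ _ hij := leOfHom ((x : ComposableArrows P _).map (homOfLE hij))

/-- A monotone map as a simplex of a nerve. -/
def simp' {n : SimplexCategoryᵒᵖ} (s : Fin (n.unop.len + 1) →o P) :
    (nerve P : SSet.{0}).obj n :=
  s.monotone.functor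

lemma seqOf_map {n m : SimplexCategoryᵒᵖ} (φ : n ⟶ m) (x : (nerve P : SSet.{0}).obj n) :
    seqOf ((nerve P : SSet.{0}).map φ x) = (seqOf x).comp φ.unop.toOrderHom := rfl

variable {X : OCat} (φ : (nerve P : SSet.{0}) ⟶ streetNerve.obj X)

/-- The functor attached to a sequence in `P`. -/
def ofSeq {k : ℕ} (z : Fin (k + 1) →o P) : ADC.nuFunctor.obj (ADC.oriental k) ⟶ X :=
  simplexHom (φ.app (op ⦋k⦌) (simp' (n := op ⦋k⦌) z))

lemma ofSeq_comp {k l : ℕ} (w : Fin (k + 1) →o Fin (l + 1)) (z : Fin (l + 1) →o P) :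
    ofSeq φ (z.comp w) = ADC.nuFunctor.map (ADC.chainsMap w) ≫ ofSeq φ z := by
  have h := ConcreteCategory.congr_hom
    (φ.naturality (SimplexCategory.mkHom w).op) (simp' (n := op ⦋l⦌) z)
  exact congrArg simplexHom h

/-- A factorisation of two sequences through an injective one. -/
structure Rep {p : ℕ} (u v : Fin (p + 1) →o P) where
  r : ℕ
  z : Fin (r + 1) →o P
  strict : StrictMono z
  u' : Fin (p + 1) →o Fin (r + 1)
  v' : Fin (p + 1) →o Fin (r + 1)
  hu : z.comp u' = u
  hv : z.comp v' = v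
  moves : ADC.MovesLast u' v'

variable {p : ℕ} {u v : Fin (p + 1) →o P}

/-- The value in a factorisation. -/
def Rep.value (R : Rep u v) : ADC.nuFunctor.obj (ADC.cyl (ADC.oriental p)) ⟶ X :=
  ADC.nuFunctor.map (ADC.prism R.u' R.v' R.moves) ≫ ofSeq φ R.z

/-- A factorisation through `S` gives the same value when the ranges compare. -/
lemma Rep.value_eq_of_range {R S : Rep u v} (h : Set.range S.z ⊆ Set.range R.z) :
    R.value φ = S.value φ := by
  choose w hw using fun i => h (Set.mem_range_self (f := S.z) i)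
  have hw' : Monotone w := fun i j hij => R.strict.le_iff_le.mp (by
    rw [hw, hw]; exact S.z.monotone hij)
  let W : Fin (S.r + 1) →o Fin (R.r + 1) := ⟨w, hw'⟩
  have hz : R.z.comp W = S.z := OrderHom.ext _ _ (funext hw)
  have eu : R.u' = W.comp S.u' := OrderHom.ext _ _ (funext fun i => R.strict.injective (by
    have h1 := DFunLike.congr_fun R.hu i
    have h2 := DFunLike.congr_fun S.hu i
    have h3 := DFunLike.congr_fun hz (S.u' i)
    simp only [OrderHom.comp_coe, Function.comp_apply] at h1 h2 h3 ⊢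
    rw [h1, h3, h2]))
  have ev : R.v' = W.comp S.v' := OrderHom.ext _ _ (funext fun i => R.strict.injective (by
    have h1 := DFunLike.congr_fun R.hv i
    have h2 := DFunLike.congr_fun S.hv i
    have h3 := DFunLike.congr_fun hz (S.v' i)
    simp only [OrderHom.comp_coe, Function.comp_apply] at h1 h2 h3 ⊢
    rw [h1, h3, h2]))
  rw [Rep.value, Rep.value, ← hz, ofSeq_comp, ← Functor.map_comp_assoc, ADC.prism_postcomp]
  simp only [eu, ev]

lemma Rep.range_supset (R : Rep u v) : Set.range u ∪ Set.range v ⊆ Set.range R.z := by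
  rintro _ (⟨i, rfl⟩ | ⟨i, rfl⟩)
  · exact ⟨R.u' i, DFunLike.congr_fun R.hu i⟩
  · exact ⟨R.v' i, DFunLike.congr_fun R.hv i⟩

/-- The least factorisation. -/
lemma exists_least (h : ADC.MovesLast u v) :
    ∃ R : Rep u v, Set.range R.z ⊆ Set.range u ∪ Set.range v := by
  classical
  let S : Finset P := Finset.univ.image u ∪ Finset.univ.image v
  have hS : ∀ a, a ∈ S ↔ a ∈ Set.range u ∪ Set.range v := fun a => by simp [S]
  have hv : ∀ i, v i = u i ∨ v i = v (Fin.last p) := fun i => by
    rcases (Fin.le_last i).lt_or_eq with hlt | he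
    · exact (h.last _ _ hlt).imp Eq.symm id
    · exact Or.inr (congrArg v he)
  have key : ∀ a ∈ S, (∃ i, a = u i) ∨ a = v (Fin.last p) := fun a ha => by
    rcases (hS a).1 ha with ⟨i, rfl⟩ | ⟨i, rfl⟩
    · exact Or.inl ⟨i, rfl⟩
    · exact (hv i).imp (fun e => ⟨i, e⟩) id
  have htot : ∀ a b : S, a ≤ b ∨ b ≤ a := by
    rintro ⟨a, ha⟩ ⟨b, hb⟩
    rcases key a ha with ⟨i, rfl⟩ | rfl <;> rcases key b hb with ⟨j, rfl⟩ | rfl
    · rcases le_total i j with hij | hij
      · exact Or.inl (u.monotone hij)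
      · exact Or.inr (u.monotone hij)
    · exact Or.inl ((u.monotone (Fin.le_last i)).trans (h.le _))
    · exact Or.inr ((u.monotone (Fin.le_last j)).trans (h.le _))
    · exact Or.inl le_rfl
  let L : LinearOrder S :=
    { (inferInstance : PartialOrder S) with le_total := htot, toDecidableLE := Classical.decRel _ }
  obtain ⟨r, hr⟩ : ∃ r, Fintype.card S = r + 1 :=
    ⟨Fintype.card S - 1, (Nat.succ_pred_eq_of_pos (Fintype.card_pos_iff.mpr
      ⟨⟨u 0, (hS _).2 (Or.inl ⟨0, rfl⟩)⟩⟩)).symm⟩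
  let e : Fin (r + 1) ≃o S := @monoEquivOfFin S _ L (r + 1) hr
  let z : Fin (r + 1) →o P := ⟨fun i => (e i).1, fun i j hij => e.monotone hij⟩
  let lift : (s : Fin (p + 1) →o P) → (∀ i, s i ∈ S) → (Fin (p + 1) →o Fin (r + 1)) := fun s hs =>
    ⟨fun i => e.symm ⟨s i, hs i⟩, fun i j hij => e.symm.monotone (s.monotone hij)⟩
  have hz : StrictMono z := fun i j hij => e.strictMono hij
  let mu : ∀ i, u i ∈ S := fun i => (hS _).2 (Or.inl ⟨i, rfl⟩)
  let mv : ∀ i, v i ∈ S := fun i => (hS _).2 (Or.inr ⟨i, rfl⟩)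
  refine ⟨⟨r, z, hz, lift u mu, lift v mv,
    OrderHom.ext _ _ (funext fun i => congrArg Subtype.val (e.apply_symm_apply _)),
    OrderHom.ext _ _ (funext fun i => congrArg Subtype.val (e.apply_symm_apply _)),
    ⟨fun i => e.symm.monotone (h.le i : (⟨u i, mu i⟩ : S) ≤ ⟨v i, mv i⟩), fun x y hxy => ?_⟩⟩, ?_⟩
  · exact (h.last x y hxy).imp (fun e' => congrArg e.symm (Subtype.ext e'))
      (fun e' => congrArg e.symm (Subtype.ext e'))
  · rintro _ ⟨i, rfl⟩
    exact (hS _).1 (e i).2

/-- The value of the prism at a pair of sequences. -/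
def prismValue (h : ADC.MovesLast u v) : ADC.nuFunctor.obj (ADC.cyl (ADC.oriental p)) ⟶ X :=
  (exists_least h).choose.value φ

lemma Rep.value_eq (R : Rep u v) (h : ADC.MovesLast u v) : R.value φ = prismValue φ h :=
  R.value_eq_of_range φ ((exists_least h).choose_spec.trans R.range_supset)

lemma prismValue_precomp (h : ADC.MovesLast u v) {q : ℕ} (θ : Fin (q + 1) →o Fin (p + 1)) :
    prismValue φ (h.precomp θ) =
      ADC.nuFunctor.map (ADC.cylMap (ADC.chainsMap θ)) ≫ prismValue φ h := by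
  obtain ⟨R, -⟩ := exists_least h
  let R' : Rep (u.comp θ) (v.comp θ) :=
    ⟨R.r, R.z, R.strict, R.u'.comp θ, R.v'.comp θ,
      by rw [← OrderHom.comp_assoc, R.hu], by rw [← OrderHom.comp_assoc, R.hv], R.moves.precomp θ⟩
  rw [← R'.value_eq φ, ← R.value_eq φ h, Rep.value, Rep.value, ← Functor.map_comp_assoc,
    ADC.prism_precomp]

lemma prismValue_end (h : ADC.MovesLast u v) (e : Bool) :
    ADC.nuFunctor.map (ADC.cylEnd e (ADC.oriental p)) ≫ prismValue φ h =
      ofSeq φ (if e then v else u) := by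
  obtain ⟨R, -⟩ := exists_least h
  rw [← R.value_eq φ h, Rep.value, ← Functor.map_comp_assoc, ADC.prism_iEnd, ← ofSeq_comp]
  cases e
  · simp [R.hu]
  · simp [R.hv]

lemma prismValue_self (h : ADC.MovesLast u u) :
    prismValue φ h = ADC.nuFunctor.map (ADC.cylProj (ADC.oriental p)) ≫ ofSeq φ u := by
  obtain ⟨R, -⟩ := exists_least h
  have e : R.v' = R.u' := OrderHom.ext _ _ (funext fun i => R.strict.injective
    ((DFunLike.congr_fun R.hv i).trans (DFunLike.congr_fun R.hu i).symm))
  rw [← R.value_eq φ h, Rep.value]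
  simp only [e]
  rw [ADC.prism_self, Functor.map_comp, Category.assoc, ← ofSeq_comp, R.hu]

variable (D : CylData) {f g : Q →o P} (hfg : ADC.MovesLast f g)

/-- The prism as a map of simplicial sets. -/
def nervePrism : (nerve Q : SSet.{0}) ⟶ streetNerve.obj (D.Γ.obj X) where
  app n := ↾fun x => simplexMk ((D.adj n.unop X).symm (prismValue φ (hfg.precomp (seqOf x))))
  naturality n m θ := by
    refine ConcreteCategory.hom_ext _ _ fun x => ?_
    refine simplex_ext ?_
    show (D.adj m.unop X).symm (prismValue φ (hfg.precomp (seqOf ((nerve Q : SSet.{0}).map θ x)))) =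
      orientals.map θ.unop ≫ (D.adj n.unop X).symm (prismValue φ (hfg.precomp (seqOf x)))
    rw [Equiv.symm_apply_eq, D.adj_map, Equiv.apply_symm_apply]
    exact prismValue_precomp φ (hfg.precomp (seqOf x)) θ.unop.toOrderHom

lemma nervePrism_ev (e : Bool) :
    nervePrism φ D hfg ≫ streetNerve.map ((D.ev e).app X) =
      Glue.nmap (if e then g else f) ≫ φ := by
  refine Glue.sset_hom_ext fun n x => simplex_ext ?_
  show (D.adj n.unop X).symm (prismValue φ (hfg.precomp (seqOf x))) ≫ (D.ev e).app X =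
    simplexHom (φ.app n ((Glue.nmap (if e then g else f)).app n x))
  rw [D.adj_ev, Equiv.apply_symm_apply]
  refine (prismValue_end φ _ e).trans ?_
  cases e <;> rfl

lemma nervePrism_const {R : Type} [PartialOrder R] (k : R →o Q) (hk : ∀ x, f (k x) = g (k x)) :
    Glue.nmap k ≫ nervePrism φ D hfg =
      Glue.nmap (f.comp k) ≫ φ ≫ streetNerve.map (D.cst.app X) := by
  refine Glue.sset_hom_ext fun n x => simplex_ext ?_
  show (D.adj n.unop X).symm (prismValue φ (hfg.precomp (seqOf ((Glue.nmap k).app n x)))) =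
    simplexHom (φ.app n ((Glue.nmap (f.comp k)).app n x)) ≫ D.cst.app X
  rw [Equiv.symm_apply_eq, D.adj_cst]
  have he : g.comp (seqOf ((Glue.nmap k).app n x)) = f.comp (seqOf ((Glue.nmap k).app n x)) :=
    OrderHom.ext _ _ (funext fun i => (hk _).symm)
  have key : ∀ (v' : Fin (n.unop.len + 1) →o P)
      (h : ADC.MovesLast (f.comp (seqOf ((Glue.nmap k).app n x))) v'),
      v' = f.comp (seqOf ((Glue.nmap k).app n x)) →
      prismValue φ h = ADC.nuFunctor.map (ADC.cylProj (ADC.oriental n.unop.len)) ≫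
        ofSeq φ (f.comp (seqOf ((Glue.nmap k).app n x))) := by
    rintro v' h rfl
    exact prismValue_self φ h
  exact key _ _ he

/-- The prism for `n`-categories. -/
theorem exists_prism (n : ℕ∞) {f g : Q →o P} (hle : ∀ x, f x ≤ g x)
    (hlast : ∀ x y, x < y → f x = g x ∨ g x = g y) {Y : NCat n}
    (φ : (nerve P : SSet.{0}) ⟶ (NCat.nerveFunctor n).obj Y) :
    ∃ h : (nerve Q : SSet.{0}) ⟶ (NCat.nerveFunctor n).obj ((D.cylN n).obj Y),
      h ≫ (NCat.nerveFunctor n).map ((D.evN n false).app Y) = Glue.nmap f ≫ φ ∧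
      h ≫ (NCat.nerveFunctor n).map ((D.evN n true).app Y) = Glue.nmap g ≫ φ ∧
      ∀ (R : Type) [PartialOrder R] (k : R →o Q), (∀ x, f (k x) = g (k x)) →
        Glue.nmap k ≫ h =
          Glue.nmap (f.comp k) ≫ φ ≫ (NCat.nerveFunctor n).map ((D.cstN n).app Y) :=
  ⟨nervePrism φ D ⟨hle, hlast⟩, nervePrism_ev φ D ⟨hle, hlast⟩ false,
    nervePrism_ev φ D ⟨hle, hlast⟩ true, fun _ _ k hk => nervePrism_const φ D ⟨hle, hlast⟩ k hk⟩

end

end Vale.Agent.P213.Homotopy
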