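import Vale.Agent.P213.Homotopy.Htpc
import Vale.Agent.P213.Homotopy.NervePrism
import Vale.Agent.P213.Glue.Basic

/-!
# The cylinder half of the input of the gluing theorem
-/

open CategoryTheory CategoryTheory.Limits

namespace Vale.Agent.P213.Homotopy

noncomputable section

/-- The input of the gluing theorem, from a cylinder and the facts about gluings along nerves. -/
def glueInput (D : CylData) (n : ℕ∞)
    (exists_glue : ∀ {B : Type} [PartialOrder B] {A V : Set B} (hAV : A ⊆ V) {Z : NCat n}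
      (f : Glue.nv A ⟶ (NCat.nerveFunctor n).obj Z), ∃ (X : NCat n) (i : Z ⟶ X)
        (φ : Glue.nv V ⟶ (NCat.nerveFunctor n).obj X),
        Glue.IsGlue (NCat.nerveFunctor n) (Glue.nincl hAV) f i φ)
    (colour : ∀ {B : Type} [PartialOrder B] {A V : Set B} (hAV : A ⊆ V),
      (∀ a ∈ V, ∀ b ∈ A, a ≤ b → a ∈ A) → ∀ {Z : NCat n}
      (f : Glue.nv A ⟶ (NCat.nerveFunctor n).obj Z) {X : NCat n} (i : Z ⟶ X)
      (φ : Glue.nv V ⟶ (NCat.nerveFunctor n).obj X),
      Glue.IsGlue (NCat.nerveFunctor n) (Glue.nincl hAV) f i φ →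
      ∃ col : ∀ m, ((NCat.nerveFunctor n).obj X).obj m → Option B,
        (∀ m x, ∀ b ∈ col m x, b ∈ V ∧ b ∉ A) ∧
        ∀ (S : Set B) (hAS : A ⊆ S) (hSV : S ⊆ V), (∀ a ∈ V, ∀ b ∈ S, a ≤ b → a ∈ S) →
          ∀ {X' : NCat n} (i' : Z ⟶ X') (φ' : Glue.nv S ⟶ (NCat.nerveFunctor n).obj X'),
            Glue.IsGlue (NCat.nerveFunctor n) (Glue.nincl hAS) f i' φ' →
            ∀ a : X' ⟶ X, i' ≫ a = i →
              φ' ≫ (NCat.nerveFunctor n).map a = Glue.nincl hSV ≫ φ →
              Mono ((NCat.nerveFunctor n).map a) ∧ ∀ m (x : ((NCat.nerveFunctor n).obj X).obj m),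
                x ∈ Set.range (((NCat.nerveFunctor n).map a).app m) ↔ ∀ b ∈ col m x, b ∈ S)
    (point : ∀ {B : Type} [PartialOrder B] (T : B) {Z : NCat n}
      (f : Glue.nv (∅ : Set B) ⟶ (NCat.nerveFunctor n).obj Z) {X : NCat n} (i : Z ⟶ X)
      (φ : Glue.nv {T} ⟶ (NCat.nerveFunctor n).obj X),
      Glue.IsGlue (NCat.nerveFunctor n) (Glue.nincl (Set.empty_subset {T})) f i φ →
      IsPushout (Glue.nincl (Set.empty_subset {T})) f φ ((NCat.nerveFunctor n).map i)) :
    Glue.GlueInput (NCat.nerveFunctor n) where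
  cyl := D.cylN n
  e0 := D.evN n false
  e1 := D.evN n true
  cst := D.cstN n
  cst_e0 := D.cstN_evN n false
  cst_e1 := D.cstN_evN n true
  htpc h := Relation.EqvGen.rel _ _ (htpc_nerveFunctor D n h)
  prism f g hle hlast _ φ := exists_prism D n hle hlast φ
  exists_glue := exists_glue
  colour := colour
  point := point

end

end Vale.Agent.P213.Homotopy
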