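import Vale.Agent.P213.Homotopy.Data
import Vale.Agent.P213.Basic.WE
import Mathlib.AlgebraicTopology.SimplicialSet.Homotopy

/-!
# A functor into the cylinder gives homotopic nerves
-/

open CategoryTheory MonoidalCategory CartesianMonoidalCategory Simplicial Opposite

namespace Vale.Agent.P213.Homotopy

noncomputable section

/-- `Fin 2` as `{false < true}`. -/
def toBool : Fin 2 →o Bool where
  toFun i := i = 1
  monotone' i j h := by revert h; fin_cases i <;> fin_cases j <;> decide

/-- The cut of a simplex of `Δ[1]`. -/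
def cut {n : SimplexCategoryᵒᵖ} (t : (Δ[1] : SSet.{0}).obj n) : Fin (n.unop.len + 1) →o Bool :=
  toBool.comp (SSet.stdSimplex.objEquiv t).toOrderHom

lemma cut_map {n m : SimplexCategoryᵒᵖ} (φ : n ⟶ m) (t : (Δ[1] : SSet.{0}).obj n) :
    cut ((Δ[1] : SSet.{0}).map φ t) = (cut t).comp φ.unop.toOrderHom := rfl

variable (D : CylData) {X Y : OCat} (h : X ⟶ D.Γ.obj Y)

/-- The value of the homotopy. -/
def htpcValue {n : SimplexCategoryᵒᵖ} (x : (streetNerve.obj X).obj n)
    (t : (Δ[1] : SSet.{0}).obj n) : (streetNerve.obj Y).obj n :=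
  simplexMk (ADC.nuFunctor.map (ADC.aw (cut t)) ≫ D.adj n.unop Y (simplexHom x ≫ h))

lemma htpcValue_map {n m : SimplexCategoryᵒᵖ} (φ : n ⟶ m) (x : (streetNerve.obj X).obj n)
    (t : (Δ[1] : SSet.{0}).obj n) :
    htpcValue D h ((streetNerve.obj X).map φ x) ((Δ[1] : SSet.{0}).map φ t) =
      (streetNerve.obj Y).map φ (htpcValue D h x t) := by
  refine simplex_ext ?_
  rw [simplexHom_map, htpcValue, htpcValue, simplexHom_mk, simplexHom_mk, simplexHom_map,
    Category.assoc, D.adj_map, cut_map]
  exact (Functor.map_comp_assoc ADC.nuFunctor _ _ _).symm.trans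
    ((congrArg (fun q => ADC.nuFunctor.map q ≫ _) (ADC.aw_naturality (cut t) φ.unop.toOrderHom).symm).trans
      (Functor.map_comp_assoc ADC.nuFunctor _ _ _))

/-- A functor into the cylinder gives a homotopy between the nerves of its ends. -/
def htpcHom : streetNerve.obj X ⊗ Δ[1] ⟶ streetNerve.obj Y where
  app n := ↾fun p => htpcValue D h p.1 p.2
  naturality n m φ := by
    refine ConcreteCategory.hom_ext _ _ fun p => ?_
    exact htpcValue_map D h φ p.1 p.2

lemma htpcValue_const {n : SimplexCategoryᵒᵖ} (x : (streetNerve.obj X).obj n)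
    (t : (Δ[1] : SSet.{0}).obj n) (e : Bool) (ht : ∀ i, cut t i = e) :
    htpcValue D h x t = (streetNerve.map (h ≫ (D.ev e).app Y)).app n x := by
  refine simplex_ext ?_
  rw [htpcValue, simplexHom_mk, simplexHom_app, ADC.aw_const _ e ht, ← Category.assoc, D.adj_ev]
  rfl

/-- The homotopy between the nerves of the two ends. -/
def nerveHomotopy : SSet.Homotopy (streetNerve.map (h ≫ (D.ev false).app Y))
    (streetNerve.map (h ≫ (D.ev true).app Y)) where
  h := htpcHom D h
  h₀ := by
    refine NatTrans.ext (funext fun n => ConcreteCategory.hom_ext _ _ fun x => ?_)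
    exact htpcValue_const D h x _ false fun i => rfl
  h₁ := by
    refine NatTrans.ext (funext fun n => ConcreteCategory.hom_ext _ _ fun x => ?_)
    exact htpcValue_const D h x _ true fun i => rfl
  rel := NatTrans.ext (funext fun n => ConcreteCategory.hom_ext _ _ fun p => p.1.2.elim)

/-- The same for `n`-categories. -/
theorem htpc_nerveFunctor (n : ℕ∞) {X Y : NCat n} (h : X ⟶ (D.cylN n).obj Y) :
    Htpc ((NCat.nerveFunctor n).map (h ≫ (D.evN n false).app Y))
      ((NCat.nerveFunctor n).map (h ≫ (D.evN n true).app Y)) :=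
  ⟨nerveHomotopy D h.hom⟩

end

end Vale.Agent.P213.Homotopy
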