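import Vale.Agent.P213.Cplx.Chains
import Vale.Agent.P213.Cplx.Cylinder
import Mathlib.Data.Fin.Tuple.Basic

/-!
# The last-vertex prism

For monotone `u ≤ v : P → L` such that every `x < y` has `u x = v x` or `v x = v y`, the map
`a ⊗ I ↦ [u a₀, …, u a_l, v a_l]` is a positive chain homotopy from `u` to `v`.
-/

open CategoryTheory

namespace Vale.Agent.P213.ADC

noncomputable section

variable {P Q L M : Type} [PartialOrder P] [PartialOrder Q] [PartialOrder L] [PartialOrder M]

/-- The homotopy condition: only last vertices move. -/
structure MovesLast (u v : P →o L) : Prop where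
  le : ∀ x, u x ≤ v x
  last : ∀ x y, x < y → u x = v x ∨ v x = v y

lemma MovesLast.precomp {u v : P →o L} (h : MovesLast u v) (k : Q →o P) :
    MovesLast (u.comp k) (v.comp k) where
  le x := h.le (k x)
  last x y hxy := by
    rcases (k.monotone hxy.le).lt_or_eq with hlt | he
    · exact h.last _ _ hlt
    · exact Or.inr (congrArg v he)

lemma MovesLast.postcomp {u v : P →o L} (h : MovesLast u v) (w : L →o M) :
    MovesLast (w.comp u) (w.comp v) where
  le x := w.monotone (h.le x)
  last x y hxy := (h.last x y hxy).imp (congrArg w) (congrArg w)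

/-- `[u c₀, …, u c_k, v c_k]`. -/
def prismSeq (u v : P →o L) {k : ℕ} (c : Fin (k + 1) → P) : Fin (k + 2) → L :=
  Fin.snoc (u ∘ c) (v (c (Fin.last k)))

lemma prismSeq_castSucc (u v : P →o L) {k : ℕ} (c : Fin (k + 1) → P) (i : Fin (k + 1)) :
    prismSeq u v c i.castSucc = u (c i) :=
  Fin.snoc_castSucc _ _ _

lemma prismSeq_last (u v : P →o L) {k : ℕ} (c : Fin (k + 1) → P) :
    prismSeq u v c (Fin.last (k + 1)) = v (c (Fin.last k)) :=
  Fin.snoc_last _ _

lemma prismSeq_monotone {u v : P →o L} (h : MovesLast u v) {k : ℕ} {c : Fin (k + 1) → P}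
    (hc : Monotone c) : Monotone (prismSeq u v c) := by
  intro i j hij
  induction j using Fin.lastCases with
  | last =>
    induction i using Fin.lastCases with
    | last => exact le_rfl
    | cast i =>
      rw [prismSeq_last, prismSeq_castSucc]
      exact (u.monotone (hc (Fin.le_last i))).trans (h.le _)
  | cast j =>
    induction i using Fin.lastCases with
    | last => exact absurd hij (not_le.mpr (Fin.castSucc_lt_last j))
    | cast i =>
      rw [prismSeq_castSucc, prismSeq_castSucc]
      exact u.monotone (hc (Fin.castSucc_le_castSucc_iff.mp hij))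

lemma prismSeq_degenerate (u v : P →o L) {k : ℕ} {c : Fin (k + 1) → P} (hc : Monotone c)
    (hd : ¬ StrictMono c) : ¬ StrictMono (prismSeq u v c) := fun hs =>
  not_strictMono_comp hc hd u fun i j hij => by
    have := hs (Fin.castSucc_lt_castSucc_iff.mpr hij)
    rwa [prismSeq_castSucc, prismSeq_castSucc] at this

/-- The faces of the prism before the last two. -/
lemma prismSeq_face (u v : P →o L) {k : ℕ} (c : Fin (k + 2) → P) (i : Fin (k + 1)) :
    face (prismSeq u v c) i.castSucc.castSucc = prismSeq u v (face c i.castSucc) := by
  funext j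
  induction j using Fin.lastCases with
  | last =>
    rw [prismSeq_last, face, Function.comp_apply, Fin.succAbove_castSucc_of_le _ _ (Fin.le_last _),
      Fin.succ_last, prismSeq_last, face, Function.comp_apply,
      Fin.succAbove_castSucc_of_le _ _ (Fin.le_last i), Fin.succ_last]
  | cast j =>
    rw [prismSeq_castSucc, face, Function.comp_apply, Fin.castSucc_succAbove_castSucc,
      prismSeq_castSucc]
    rfl

lemma prismSeq_face_last (u v : P →o L) {k : ℕ} (c : Fin (k + 1) → P) :
    face (prismSeq u v c) (Fin.last (k + 1)) = u ∘ c := by
  funext j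
  rw [face, Function.comp_apply, Fin.succAbove_last, prismSeq_castSucc]
  rfl

/-- The one cancellation: the face of the prism omitting `u c_k`. -/
lemma el_prism_cancel {u v : P →o L} (h : MovesLast u v) {k : ℕ} {c : Fin (k + 2) → P}
    (hc : StrictMono c) :
    el (face (prismSeq u v c) (Fin.last (k + 1)).castSucc) =
      el (v ∘ c) + el (prismSeq u v (face c (Fin.last (k + 1)))) := by
  have hX : ∀ j : Fin (k + 1),
      face (prismSeq u v c) (Fin.last (k + 1)).castSucc j.castSucc = u (c j.castSucc) := fun j => by
    rw [face, Function.comp_apply, Fin.succAbove_castSucc_of_lt _ _ (Fin.castSucc_lt_last j),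
      prismSeq_castSucc]
  have hXl : face (prismSeq u v c) (Fin.last (k + 1)).castSucc (Fin.last (k + 1))
      = v (c (Fin.last (k + 1))) := by
    rw [face, Function.comp_apply, Fin.succAbove_castSucc_of_le _ _ le_rfl, Fin.succ_last,
      prismSeq_last]
  have hF : ∀ j : Fin (k + 1), face c (Fin.last (k + 1)) j = c j.castSucc := fun j => by
    rw [face, Function.comp_apply, Fin.succAbove_last]
  by_cases hv : v (c (Fin.last k).castSucc) = v (c (Fin.last (k + 1)))
  · -- the two last vertices have the same image under `v`
    have h1 : el (v ∘ c) = 0 := el_of_not fun hs =>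
      (hs (Fin.castSucc_lt_last (Fin.last k))).ne hv
    rw [h1, zero_add]
    congr 1
    funext j
    induction j using Fin.lastCases with
    | last => rw [hXl, prismSeq_last, hF, hv]
    | cast j => rw [hX, prismSeq_castSucc, hF]
  · have huv : ∀ j : Fin (k + 1), u (c j.castSucc) = v (c j.castSucc) := fun j => by
      rcases h.last _ _ (hc (Fin.castSucc_lt_last j)) with e | e
      · exact e
      · refine absurd (le_antisymm ?_ ?_) hv
        · exact v.monotone (hc.monotone (Fin.le_last _))
        · rw [← e]
          exact v.monotone (hc.monotone (Fin.castSucc_le_castSucc_iff.mpr (Fin.le_last j)))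
    have h1 : el (prismSeq u v (face c (Fin.last (k + 1)))) = 0 := el_of_not fun hs => by
      have := hs (Fin.castSucc_lt_last (Fin.last k))
      rw [prismSeq_castSucc, prismSeq_last, hF, huv] at this
      exact lt_irrefl _ this
    rw [h1, add_zero]
    congr 1
    funext j
    induction j using Fin.lastCases with
    | last => exact hXl
    | cast j => rw [hX]; exact huv j

/-- The values of the prism on the basis of `chains P ⊗ I`. -/
def prismGen (u v : P →o L) : ∀ k, CylB (Chain P) k → (Chain L k →₀ ℤ)
  | _, .ends e c => el ((if e then ⇑v else ⇑u) ∘ c.1)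
  | _, .mid c => el (prismSeq u v c.1)

lemma onGen_prism_end (u v : P →o L) {k : ℕ} (e : Bool) {c : Fin (k + 1) → P} (hc : Monotone c) :
    onGen (prismGen u v k) (iEnd (chains P) k e (el c)) = el ((if e then ⇑v else ⇑u) ∘ c) := by
  by_cases hs : StrictMono c
  · rw [el_of_strictMono hs, iEnd_single, onGen_single]
    rfl
  · rw [el_of_not hs, map_zero, map_zero, el_of_not (not_strictMono_comp hc hs _)]

lemma onGen_prism_mid {u v : P →o L} {k : ℕ} {c : Fin (k + 1) → P} (hc : Monotone c) :
    onGen (prismGen u v (k + 1)) (iMid (chains P) k (el c)) = el (prismSeq u v c) := by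
  by_cases hs : StrictMono c
  · rw [el_of_strictMono hs, iMid_single, onGen_single]
    rfl
  · rw [el_of_not hs, map_zero, map_zero, el_of_not (prismSeq_degenerate u v hc hs)]

/-- The prism as a morphism `chains P ⊗ I ⟶ chains L`. -/
def prism (u v : P →o L) (h : MovesLast u v) : cyl (chains P) ⟶ chains L :=
  Hom.ofGen (prismGen u v)
    (fun k b => by cases b <;> exact el_nonneg _)
    (fun k b => by
      change onGen (prismGen u v k) (cylD (chains P) k (Finsupp.single b 1))
        = (chains L).d k (prismGen u v (k + 1) b)
      cases b with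
      | ends e c =>
        rw [← iEnd_single, cylD_iEnd, ← el_val c, chains_d_el c.2.monotone, map_sum, map_sum,
          prismGen, chains_d_el ((by cases e <;> simp [u.monotone, v.monotone] :
            Monotone (if e then ⇑v else ⇑u)).comp c.2.monotone)]
        refine Finset.sum_congr rfl fun i _ => ?_
        rw [map_zsmul, map_zsmul,
          onGen_prism_end u v e (c.2.monotone.comp (Fin.strictMono_succAbove i).monotone)]
        rfl
      | mid c =>
        rw [← iMid_single, cylD_iMid, ← el_val c, prismGen,
          chains_d_el (prismSeq_monotone h c.2.monotone)]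
        cases k with
        | zero =>
          rw [dMid, LinearMap.sub_apply, map_sub, onGen_prism_end u v _ c.2.monotone,
            onGen_prism_end u v _ c.2.monotone, Fin.sum_univ_two]
          have e0 : prismSeq u v c.1 ∘ Fin.succAbove 0 = v ∘ c.1 := by
            funext j
            rw [Fin.fin_one_eq_zero j]
            exact prismSeq_last u v c.1
          have e1 : prismSeq u v c.1 ∘ Fin.succAbove 1 = u ∘ c.1 := prismSeq_face_last u v c.1
          rw [e0, e1]
          simp [sub_eq_add_neg]
        | succ k =>
          rw [dMid, LinearMap.add_apply, LinearMap.comp_apply, LinearMap.sub_apply, par_sub,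
            map_add, map_zsmul,
            map_sub, onGen_prism_end u v _ c.2.monotone, onGen_prism_end u v _ c.2.monotone,
            chains_d_el c.2.monotone, map_sum, map_sum]
          have hm : ∀ i : Fin (k + 2),
              onGen (prismGen u v (k + 1)) (iMid (chains P) k ((-1 : ℤ) ^ (i : ℕ) •
                el (c.1 ∘ i.succAbove))) = (-1 : ℤ) ^ (i : ℕ) • el (prismSeq u v (face c.1 i)) :=
            fun i => by
              rw [map_zsmul, map_zsmul,
                onGen_prism_mid (c.2.monotone.comp (Fin.strictMono_succAbove i).monotone)]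
          rw [Finset.sum_congr rfl fun i _ => hm i, Fin.sum_univ_castSucc,
            Fin.sum_univ_castSucc (n := k + 2), Fin.sum_univ_castSucc (n := k + 1)]
          simp only [Fin.val_castSucc, Fin.val_last]
          have eL : el (prismSeq u v c.1 ∘ (Fin.last (k + 2)).succAbove) = el (u ∘ c.1) :=
            congrArg el (prismSeq_face_last u v c.1)
          have eS : ∀ i : Fin (k + 1), el (prismSeq u v c.1 ∘ i.castSucc.castSucc.succAbove) =
              el (prismSeq u v (face c.1 i.castSucc)) := fun i =>
            congrArg el (prismSeq_face u v c.1 i)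
          rw [eL, el_prism_cancel h c.2,
            Finset.sum_congr rfl fun (i : Fin (k + 1)) _ =>
              congrArg ((-1 : ℤ) ^ (i : ℕ) • ·) (eS i)]
          simp only [if_true, Bool.false_eq_true, if_false, pow_succ, mul_neg, mul_one, neg_smul,
            smul_add, smul_sub]
          abel)
    (fun b => by
      cases b with
      | ends e c =>
        exact (chains_ε_el _).trans (by
          change (1 : ℤ) = cylEps (chains P) (Finsupp.single _ 1)
          rw [← iEnd_single, cylEps_iEnd, ← el_val c, chains_ε_el]))

lemma prism_iEnd (u v : P →o L) (h : MovesLast u v) (e : Bool) :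
    cylEnd e (chains P) ≫ prism u v h = chainsMap (if e then v else u) :=
  Hom.ext_gen fun k c => by
    rw [comp_f, chainsMap_gen, chains_gen]
    refine (onGen_prism_end u v e c.2.monotone).trans ?_
    cases e <;> rfl

/-- Naturality in the source. -/
lemma prism_precomp (u v : P →o L) (h : MovesLast u v) (k : Q →o P) :
    cylMap (chainsMap k) ≫ prism u v h = prism (u.comp k) (v.comp k) (h.precomp k) := by
  refine Hom.ext_gen fun l b => ?_
  rw [comp_f]
  cases b with
  | ends e c =>
    rw [show (cyl (chains Q)).gen (CylB.ends e c) = iEnd (chains Q) l e (el c.1) by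
      rw [el_val, iEnd_single]; rfl]
    refine (congrArg _ (cylMapF_iEnd (chainsMap k) l e _)).trans ?_
    rw [chainsMap_el k c.2.monotone]
    refine (onGen_prism_end u v e (k.monotone.comp c.2.monotone)).trans ?_
    refine Eq.trans ?_ (onGen_prism_end (u.comp k) (v.comp k) e c.2.monotone).symm
    cases e <;> rfl
  | @mid l c =>
    rw [show (cyl (chains Q)).gen (CylB.mid c) = iMid (chains Q) l (el c.1) by
      rw [el_val, iMid_single]; rfl]
    refine (congrArg _ (cylMapF_iMid (chainsMap k) l _)).trans ?_
    rw [chainsMap_el k c.2.monotone]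
    refine (onGen_prism_mid (k.monotone.comp c.2.monotone)).trans ?_
    refine Eq.trans ?_ (onGen_prism_mid (u := u.comp k) (v := v.comp k) c.2.monotone).symm
    congr 1

/-- Naturality in the target. -/
lemma prism_postcomp (u v : P →o L) (h : MovesLast u v) (w : L →o M) :
    prism u v h ≫ chainsMap w = prism (w.comp u) (w.comp v) (h.postcomp w) := by
  refine Hom.ext_gen fun l b => ?_
  rw [comp_f, prism, prism, Hom.ofGen_gen, Hom.ofGen_gen]
  cases b with
  | ends e c =>
    rw [prismGen, prismGen, chainsMap_el w ((by cases e <;> simp [u.monotone, v.monotone] :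
      Monotone (if e then ⇑v else ⇑u)).comp c.2.monotone)]
    cases e <;> rfl
  | mid c =>
    rw [prismGen, prismGen, chainsMap_el w (prismSeq_monotone h c.2.monotone)]
    congr 1
    funext j
    induction j using Fin.lastCases with
    | last => simp [prismSeq_last]
    | cast j => simp [prismSeq_castSucc]

/-- Nothing moves: the prism is the projection. -/
lemma prism_self (u : P →o L) (h : MovesLast u u) :
    prism u u h = cylProj (chains P) ≫ chainsMap u := by
  refine Hom.ext_gen fun l b => ?_
  rw [comp_f, prism, Hom.ofGen_gen]
  cases b with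
  | ends e c =>
    rw [show (cyl (chains P)).gen (CylB.ends e c) = iEnd (chains P) l e (el c.1) by
      rw [el_val, iEnd_single]; rfl]
    refine Eq.trans ?_ (congrArg _ (cylProjF_iEnd l e _)).symm
    rw [chainsMap_el u c.2.monotone, prismGen]
    cases e <;> rfl
  | @mid l c =>
    rw [show (cyl (chains P)).gen (CylB.mid c) = iMid (chains P) l (el c.1) by
      rw [el_val, iMid_single]; rfl]
    refine Eq.trans ?_ (congrArg _ (cylProjF_iMid l _)).symm
    rw [map_zero, prismGen, el_of_not]
    intro hs
    have := hs (Fin.castSucc_lt_last (Fin.last l))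
    rw [prismSeq_castSucc, prismSeq_last] at this
    exact lt_irrefl _ this

end

end Vale.Agent.P213.ADC
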